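import Mathlib

/-!
Rational points of affine quadrics and their coordinate projections.
-/

namespace Vale.Agent.H7

open Filter Topology

/-- A function of two rational parameters that is a polynomial of total degree at most two. -/
def IsQuad (G : ℚ → ℚ → ℚ) : Prop :=
  ∃ c0 c1 c2 c3 c4 c5 : ℚ, ∀ s u : ℚ,
    G s u = c0 + c1 * s + c2 * u + c3 * s ^ 2 + c4 * s * u + c5 * u ^ 2

lemma isQuad_zero : IsQuad (fun _ _ => 0) :=
  ⟨0, 0, 0, 0, 0, 0, fun s u => by ring⟩

lemma IsQuad.add {G H : ℚ → ℚ → ℚ} (hG : IsQuad G) (hH : IsQuad H) :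
    IsQuad (fun s u => G s u + H s u) := by
  obtain ⟨a0, a1, a2, a3, a4, a5, ha⟩ := hG
  obtain ⟨b0, b1, b2, b3, b4, b5, hb⟩ := hH
  exact ⟨a0 + b0, a1 + b1, a2 + b2, a3 + b3, a4 + b4, a5 + b5, fun s u => by
    simp only [ha, hb]; ring⟩

lemma isQuad_sum {ι : Type*} (S : Finset ι) (F : ι → ℚ → ℚ → ℚ) (hF : ∀ i ∈ S, IsQuad (F i)) :
    IsQuad (fun s u => ∑ i ∈ S, F i s u) := by
  classical
  induction S using Finset.induction_on with
  | empty => simpa using isQuad_zero
  | insert i S hi ih =>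
    have h1 : IsQuad (F i) := hF i (Finset.mem_insert_self i S)
    have h2 : IsQuad (fun s u => ∑ j ∈ S, F j s u) :=
      ih (fun j hj => hF j (Finset.mem_insert_of_mem hj))
    have := h1.add h2
    simpa [Finset.sum_insert hi] using this

lemma isQuad_const (k : ℚ) : IsQuad (fun _ _ => k) :=
  ⟨k, 0, 0, 0, 0, 0, fun s u => by ring⟩

lemma isQuad_lin (k p a b : ℚ) : IsQuad (fun s u => k * (p + s * a + u * b)) :=
  ⟨k * p, k * a, k * b, 0, 0, 0, fun s u => by ring⟩

lemma isQuad_mul (k p a b p' a' b' : ℚ) :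
    IsQuad (fun s u => k * ((p + s * a + u * b) * (p' + s * a' + u * b'))) :=
  ⟨k * p * p', k * (p * a' + a * p'), k * (p * b' + b * p'), k * a * a', k * (a * b' + b * a'),
    k * b * b', fun s u => by ring⟩

/-- Evaluation of a monomial of degree at most two along an affine plane is a quadratic function of
the two parameters. -/
lemma isQuad_monomial {σ : Type*} (d : σ →₀ ℕ) (hd : (d.sum fun _ e => e) ≤ 2) (k : ℚ)
    (P A B : σ → ℚ) :
    IsQuad (fun s u => MvPolynomial.eval (fun i => P i + s * A i + u * B i)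
      (MvPolynomial.monomial d k)) := by
  classical
  have hcard : Multiset.card (Finsupp.toMultiset d) ≤ 2 := by
    rw [Finsupp.card_toMultiset]; exact hd
  have hprod : ∀ w : σ → ℚ, (d.prod fun n e => w n ^ e) = ((Finsupp.toMultiset d).map w).prod := by
    intro w
    rw [Finsupp.toMultiset_map, Finsupp.prod_toMultiset, Finsupp.prod_mapDomain_index]
    · intro a; simp
    · intro a m n; exact pow_add a m n
  have hev : ∀ w : σ → ℚ, MvPolynomial.eval w (MvPolynomial.monomial d k)
      = k * ((Finsupp.toMultiset d).map w).prod := by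
    intro w
    rw [MvPolynomial.eval_monomial, hprod]
  simp only [hev]
  generalize Finsupp.toMultiset d = M at hcard
  have h3 : Multiset.card M = 0 ∨ Multiset.card M = 1 ∨ Multiset.card M = 2 := by omega
  rcases h3 with h | h | h
  · rw [Multiset.card_eq_zero] at h
    subst h
    simpa using isQuad_const k
  · rw [Multiset.card_eq_one] at h
    obtain ⟨i, rfl⟩ := h
    simpa using isQuad_lin k (P i) (A i) (B i)
  · rw [Multiset.card_eq_two] at h
    obtain ⟨i, j, rfl⟩ := h
    simpa using isQuad_mul k (P i) (A i) (B i) (P j) (A j) (B j)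

/-- Evaluation of a polynomial of total degree at most two along an affine plane is a quadratic
function of the two parameters. -/
lemma isQuad_eval {σ : Type*} (g : MvPolynomial σ ℚ) (hg : g.totalDegree ≤ 2)
    (P A B : σ → ℚ) :
    IsQuad (fun s u => MvPolynomial.eval (fun i => P i + s * A i + u * B i) g) := by
  classical
  have hsum : ∀ w : σ → ℚ, MvPolynomial.eval w g
      = ∑ d ∈ g.support, MvPolynomial.eval w (MvPolynomial.monomial d (MvPolynomial.coeff d g)) := by
    intro w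
    conv_lhs => rw [← MvPolynomial.support_sum_monomial_coeff g]
    rw [map_sum]
  simp only [hsum]
  apply isQuad_sum
  intro d hd
  exact isQuad_monomial d (le_trans (MvPolynomial.le_totalDegree hd) hg) _ P A B

end Vale.Agent.H7

namespace Vale.Agent.H7

open Filter Topology

/-- Core lemma: a bivariate quadratic vanishing at `(0,0)`, `(1,0)`, `(0,1)` has rational zeros
at which the affine function taking the values `a`, `b`, `c` there is arbitrarily close to, but
different from, `b`. -/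
theorem quad_core (G : ℚ → ℚ → ℚ) (hG : IsQuad G) (a b c : ℚ) (hab : a ≠ b) (hbc : b ≠ c)
    (hac : a ≠ c) (h00 : G 0 0 = 0) (h10 : G 1 0 = 0) (h01 : G 0 1 = 0) (ε : ℚ) (hε : 0 < ε) :
    ∃ s u : ℚ, G s u = 0 ∧ 0 < |a + s * (b - a) + u * (c - a) - b| ∧
      |a + s * (b - a) + u * (c - a) - b| < ε := by
  obtain ⟨c0, c1, c2, α, γ, β, hG⟩ := hG
  have e0 : c0 = 0 := by have := hG 0 0; rw [h00] at this; linarith
  have e1 : c1 = -α := by have := hG 1 0; rw [h10] at this; linarith
  have e2 : c2 = -β := by have := hG 0 1; rw [h01] at this; linarith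
  subst e0 e1 e2
  have hba : b - a ≠ 0 := sub_ne_zero.mpr hab.symm
  have hca : c - a ≠ 0 := sub_ne_zero.mpr hac.symm
  have hcb : c - b ≠ 0 := sub_ne_zero.mpr hbc.symm
  by_cases hα : α = 0
  · -- the whole line `u = 0` consists of zeros
    subst hα
    refine ⟨1 + ε / (2 * |b - a|), 0, ?_, ?_, ?_⟩
    · rw [hG]; ring
    · have : a + (1 + ε / (2 * |b - a|)) * (b - a) + 0 * (c - a) - b
          = ε / (2 * |b - a|) * (b - a) := by ring
      rw [this, abs_mul, abs_div, abs_mul, abs_abs]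
      have : 0 < |b - a| := abs_pos.mpr hba
      positivity
    · have h1 : a + (1 + ε / (2 * |b - a|)) * (b - a) + 0 * (c - a) - b
          = ε / (2 * |b - a|) * (b - a) := by ring
      have hpos : 0 < |b - a| := abs_pos.mpr hba
      rw [h1, abs_mul, abs_div, abs_mul, abs_abs, abs_of_pos hε, abs_of_pos (by norm_num : (0:ℚ) < 2)]
      have : ε / (2 * |b - a|) * |b - a| = ε / 2 := by field_simp
      rw [this]; linarith
  by_cases hβ : β = 0
  · -- the whole line `s = 0` consists of zeros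
    subst hβ
    refine ⟨0, (b - a) / (c - a) + ε / (2 * |c - a|), ?_, ?_, ?_⟩
    · rw [hG]; ring
    · have : a + 0 * (b - a) + ((b - a) / (c - a) + ε / (2 * |c - a|)) * (c - a) - b
          = ε / (2 * |c - a|) * (c - a) := by field_simp; ring
      rw [this, abs_mul, abs_div, abs_mul, abs_abs]
      have : 0 < |c - a| := abs_pos.mpr hca
      positivity
    · have h1 : a + 0 * (b - a) + ((b - a) / (c - a) + ε / (2 * |c - a|)) * (c - a) - b
          = ε / (2 * |c - a|) * (c - a) := by field_simp; ring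
      have hpos : 0 < |c - a| := abs_pos.mpr hca
      rw [h1, abs_mul, abs_div, abs_mul, abs_abs, abs_of_pos hε, abs_of_pos (by norm_num : (0:ℚ) < 2)]
      have : ε / (2 * |c - a|) * |c - a| = ε / 2 := by field_simp
      rw [this]; linarith
  -- generic case: second intersection points of the lines through the origin of slope `μ`
  set κ : ℚ := (a - b) * γ + β * (b - a) + α * (c - a) with hκ
  set D : ℚ → ℚ := fun μ => α + γ * μ + β * μ ^ 2 with hD
  set φ : ℚ → ℚ := fun μ => μ * (κ + μ * (β * (c - b))) / D μ with hφ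
  have hDc : Continuous D := by rw [hD]; fun_prop
  have hD0 : D 0 ≠ 0 := by simp [hD, hα]
  have h1 : ∀ᶠ μ in 𝓝[≠] (0 : ℚ), D μ ≠ 0 :=
    (hDc.continuousAt.eventually_ne hD0).filter_mono nhdsWithin_le_nhds
  have h2 : ∀ᶠ μ in 𝓝[≠] (0 : ℚ), μ ≠ 0 := self_mem_nhdsWithin
  have h3 : ∀ᶠ μ in 𝓝[≠] (0 : ℚ), κ + μ * (β * (c - b)) ≠ 0 := by
    by_cases hk : κ = 0
    · filter_upwards [h2] with μ hμ
      rw [hk, zero_add]
      exact mul_ne_zero hμ (mul_ne_zero hβ hcb)
    · have hc : ContinuousAt (fun μ : ℚ => κ + μ * (β * (c - b))) 0 := by fun_prop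
      exact (hc.eventually_ne (by simpa using hk)).filter_mono nhdsWithin_le_nhds
  have hφc : ContinuousAt φ 0 := by
    rw [hφ]
    exact ContinuousAt.div (by fun_prop) hDc.continuousAt hD0
  have hφ0 : φ 0 = 0 := by simp [hφ]
  have h4 : ∀ᶠ μ in 𝓝[≠] (0 : ℚ), φ μ < ε :=
    (hφc.tendsto.eventually (eventually_lt_nhds (by rw [hφ0]; exact hε))).filter_mono
      nhdsWithin_le_nhds
  have h5 : ∀ᶠ μ in 𝓝[≠] (0 : ℚ), -ε < φ μ :=
    (hφc.tendsto.eventually (eventually_gt_nhds (by rw [hφ0]; linarith))).filter_mono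
      nhdsWithin_le_nhds
  obtain ⟨μ, hDμ, hμ, hψ, hlt, hgt⟩ := (h1.and (h2.and (h3.and (h4.and h5)))).exists
  have hDμ' : α + γ * μ + β * μ ^ 2 ≠ 0 := hDμ
  have hDe : D μ = α + γ * μ + β * μ ^ 2 := rfl
  have ht : (α + β * μ) / D μ * (α + γ * μ + β * μ ^ 2) = α + β * μ := by
    rw [hDe]; exact div_mul_cancel₀ _ hDμ'
  have hx : a + (α + β * μ) / D μ * (b - a) + (α + β * μ) / D μ * μ * (c - a) - b = φ μ := by
    simp only [hφ]
    rw [eq_div_iff hDμ, hDe]
    linear_combination (b - a + μ * (c - a)) * ht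
  refine ⟨(α + β * μ) / D μ, (α + β * μ) / D μ * μ, ?_, ?_, ?_⟩
  · rw [hG]
    linear_combination ((α + β * μ) / D μ) * ht
  · rw [hx, abs_pos]
    simp only [hφ]
    exact div_ne_zero (mul_ne_zero hμ hψ) hDμ
  · rw [hx, abs_lt]
    exact ⟨hgt, hlt⟩

end Vale.Agent.H7

namespace Vale.Agent.H7

/-- Key step: three rational zeros of a polynomial of total degree at most two whose `i₀`-th
coordinates `a`, `b`, `c` are pairwise distinct produce rational zeros whose `i₀`-th coordinate is
arbitrarily close to, but different from, `b`. -/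
theorem quadric_key {σ : Type*} (i₀ : σ) (g : MvPolynomial σ ℚ) (hg : g.totalDegree ≤ 2)
    (Pa Pb Pc : σ → ℚ) (ha : MvPolynomial.eval Pa g = 0) (hb : MvPolynomial.eval Pb g = 0)
    (hc : MvPolynomial.eval Pc g = 0) (hab : Pa i₀ ≠ Pb i₀) (hbc : Pb i₀ ≠ Pc i₀)
    (hac : Pa i₀ ≠ Pc i₀) (ε : ℚ) (hε : 0 < ε) :
    ∃ v : σ → ℚ, MvPolynomial.eval v g = 0 ∧ 0 < |v i₀ - Pb i₀| ∧ |v i₀ - Pb i₀| < ε := by
  have hQ := isQuad_eval g hg Pa (fun i => Pb i - Pa i) (fun i => Pc i - Pa i)
  have h00 : MvPolynomial.eval (fun i => Pa i + 0 * (Pb i - Pa i) + 0 * (Pc i - Pa i)) g = 0 := by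
    have : (fun i => Pa i + 0 * (Pb i - Pa i) + 0 * (Pc i - Pa i)) = Pa := by
      funext i; ring
    rw [this]; exact ha
  have h10 : MvPolynomial.eval (fun i => Pa i + 1 * (Pb i - Pa i) + 0 * (Pc i - Pa i)) g = 0 := by
    have : (fun i => Pa i + 1 * (Pb i - Pa i) + 0 * (Pc i - Pa i)) = Pb := by
      funext i; ring
    rw [this]; exact hb
  have h01 : MvPolynomial.eval (fun i => Pa i + 0 * (Pb i - Pa i) + 1 * (Pc i - Pa i)) g = 0 := by
    have : (fun i => Pa i + 0 * (Pb i - Pa i) + 1 * (Pc i - Pa i)) = Pc := by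
      funext i; ring
    rw [this]; exact hc
  obtain ⟨s, u, hz, hpos, hlt⟩ :=
    quad_core _ hQ (Pa i₀) (Pb i₀) (Pc i₀) hab hbc hac h00 h10 h01 ε hε
  exact ⟨fun i => Pa i + s * (Pb i - Pa i) + u * (Pc i - Pa i), hz, hpos, hlt⟩

end Vale.Agent.H7
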